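import Crest.Agent.X212.Nvg56.Cn
import Crest.Agent.X212.Weil93.Main
import Crest.Agent.X212.Gm56.Nck

-- ▼ part X212/Mv17/Cls
section

/-!
# X212 / Mv17, part Cls (helper17): Mayer-Vietoris for spin^c classes

* `Ut`, `Lg`, `lg_of_hz` : smooth units, their arguments;
* `Spl`, `eqv_union`, `cls_inj` : a class is determined by its restrictions;
* `Gen`, `gen_of_loop` : generators of the units;
* `Gd`, `exists_gd`, `gd_of`, `Gd.eq_iff`, `tor_inj`, `tor_surj` : the classes glued from two modules.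
-/

set_option autoImplicit false
set_option linter.unusedSectionVars false

open Set Filter Topology Function Matrix
open scoped ContDiff Manifold
open Crest.Agent.X212.Lab56 Crest.Agent.X212.Pj41
open Crest.Agent.X212.Dr59 (HZ Cut exists_cut glue glue_left glue_right df)
open Crest.Agent.X212.Line51 (ang CSm cl_ang ang_exp ang_congr dg_ang)

noncomputable section

namespace Crest.Agent.X212.Mv17

variable {E : Type} [NormedAddCommGroup E] [NormedSpace ℝ E] [FiniteDimensional ℝ E]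
  {H : Type} [TopologicalSpace H] {I : ModelWithCorners ℝ E H}
  {M : Type} [TopologicalSpace M] [ChartedSpace H M] [IsManifold I ∞ M]
  {E' : Type} [NormedAddCommGroup E'] [NormedSpace ℝ E'] [FiniteDimensional ℝ E']
  {H' : Type} [TopologicalSpace H'] {I' : ModelWithCorners ℝ E' H'}
  {N : Type} [TopologicalSpace N] [ChartedSpace H' N] [IsManifold I' ∞ N]
  {ι ι' ι'' κ l n k : Type} [Fintype ι] [Fintype ι'] [Fintype ι''] [Fintype κ] [Fintype l] [Fintype n]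
  [DecidableEq ι] [DecidableEq ι'] [DecidableEq ι''] [DecidableEq κ] [DecidableEq l] [DecidableEq n]
  {O O' U V : Set M} {a b c c' : M → ℂ}

/-! ### units -/

variable (I) in
/-- a smooth unit -/
def Ut (c : M → ℂ) (O : Set M) : Prop := ∀ x ∈ O, FSm I c x ∧ ‖c x‖ = 1

variable (I) in
/-- a smooth argument exists -/
def Lg (c : M → ℂ) (O : Set M) : Prop := ∃ t : M → ℝ, ∀ x ∈ O, FSm I t x ∧ c x = Circle.exp (t x)

theorem Ut.mono (h : Ut I c O) (k : O' ⊆ O) : Ut I c O' := fun x hx => h x (k hx)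

theorem Ut.one : Ut I 1 O := fun _ _ => ⟨contMDiffAt_const, norm_one⟩

theorem Ut.mul (h : Ut I c O) (h' : Ut I c' O) : Ut I (c * c') O := fun x hx =>
  ⟨(h x hx).1.mul' (h' x hx).1, by rw [Pi.mul_apply, norm_mul, (h x hx).2, (h' x hx).2, one_mul]⟩

theorem Ut.ne (h : Ut I c O) {x : M} (hx : x ∈ O) : c x ≠ 0 :=
  norm_ne_zero_iff.1 (by rw [(h x hx).2]; exact one_ne_zero)

theorem Ut.inv (h : Ut I c O) : Ut I c⁻¹ O := fun x hx =>
  ⟨(contDiffAt_inv ℝ (h.ne hx)).comp_contMDiffAt (h x hx).1, by rw [Pi.inv_apply, norm_inv, (h x hx).2, inv_one]⟩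

theorem Ut.zpow (h : Ut I c O) (m : ℤ) : Ut I (c ^ m) O := by
  have k : ∀ j : ℕ, Ut I (c ^ j) O := fun j => by
    induction j with
    | zero => rw [pow_zero]; exact .one
    | succ j ih => rw [pow_succ]; exact ih.mul h
  cases m with
  | ofNat j => simpa using k j
  | negSucc j => rw [zpow_negSucc]; exact (k _).inv

theorem Ut.exp {t : M → ℝ} (h : ∀ x ∈ O, FSm I t x) : Ut I (fun x => (Circle.exp (t x) : ℂ)) O :=
  fun x hx => ⟨fsm_exp (h x hx), Circle.norm_coe _⟩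

theorem Ut.comp {f : N → M} {W : Set N} (h : Ut I c O) (hf : ∀ y ∈ W, ContMDiffAt I' I ∞ f y)
    (hm : MapsTo f W O) : Ut I' (c ∘ f) W := fun y hy => ⟨(h _ (hm hy)).1.comp y (hf y hy), (h _ (hm hy)).2⟩

theorem Ut.congr (h : Ut I c O) (hO : IsOpen O) (e : EqOn c' c O) : Ut I c' O := fun x hx =>
  ⟨(h x hx).1.congr_of_eventuallyEq (eventually_of_mem (hO.mem_nhds hx) e), by rw [e hx, (h x hx).2]⟩

theorem Lg.mono (h : Lg I c O) (k : O' ⊆ O) : Lg I c O' := h.imp fun _ e x hx => e x (k hx)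

theorem Lg.congr (h : Lg I c O) (e : EqOn c' c O) : Lg I c' O :=
  h.imp fun _ k x hx => ⟨(k x hx).1, (e hx).trans (k x hx).2⟩

theorem Lg.one : Lg I 1 O := ⟨0, fun _ _ => ⟨contMDiffAt_const, by simp⟩⟩

theorem Lg.mul (h : Lg I c O) (h' : Lg I c' O) : Lg I (c * c') O :=
  let ⟨t, e⟩ := h; let ⟨t', e'⟩ := h'
  ⟨t + t', fun x hx => ⟨(e x hx).1.add (e' x hx).1, by
    rw [Pi.mul_apply, (e x hx).2, (e' x hx).2, Pi.add_apply, Circle.exp_add, Circle.coe_mul]⟩⟩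

theorem Lg.inv (h : Lg I c O) : Lg I c⁻¹ O :=
  let ⟨t, e⟩ := h
  ⟨-t, fun x hx => ⟨(e x hx).1.neg, by rw [Pi.inv_apply, (e x hx).2, Pi.neg_apply, Circle.exp_neg, Circle.coe_inv]⟩⟩

theorem Lg.comp {f : N → M} {W : Set N} (h : Lg I c O) (hf : ∀ y ∈ W, ContMDiffAt I' I ∞ f y)
    (hm : MapsTo f W O) : Lg I' (c ∘ f) W :=
  let ⟨t, e⟩ := h; ⟨t ∘ f, fun y hy => ⟨(e _ (hm hy)).1.comp y (hf y hy), (e _ (hm hy)).2⟩⟩

theorem Lg.hasLog (h : Lg I c O) : Pic56.HasLog c O :=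
  let ⟨t, e⟩ := h
  ⟨fun x => t x * Complex.I, fun x hx => (((Complex.continuous_ofReal.continuousAt.comp
    (e x hx).1.continuousAt).mul continuousAt_const).continuousWithinAt), fun x hx => by
      rw [(e x hx).2, Circle.coe_exp]⟩

theorem Ut.lg (h : Ut I c O) (hO : IsOpen O) (k : Pic56.HasLog c O) : Lg I c O :=
  exists_arg hO (fun x hx => (h x hx).1) (fun x hx => (h x hx).2) k

/-- a unit whose values are locally constant -/
theorem lg_of_lc (h : ∀ x ∈ O, ‖c x‖ = 1) (e : ∀ x ∈ O, ∀ᶠ y in 𝓝 x, c y = c x) : Lg I c O :=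
  ⟨fun x => (c x).arg, fun x hx => ⟨(contMDiffAt_const (c := (c x).arg)).congr_of_eventuallyEq
    ((e x hx).mono fun y hy => congrArg Complex.arg hy), by
      rw [Circle.coe_exp, ← one_mul (Complex.exp _), ← Complex.ofReal_one, ← h x hx, Complex.norm_mul_exp_arg_mul_I]⟩⟩

variable [I.Boundaryless]

theorem Ut.loc (h : Ut I c O) (hO : IsOpen O) {x : M} (hx : x ∈ O) :
    ∃ W, Weil93.Nice I W ∧ x ∈ W ∧ W ⊆ O ∧ Lg I c W := by
  obtain ⟨L, hL⟩ := Cls19.exists_slog (I := I) (eventually_of_mem (hO.mem_nhds hx) fun y hy => (h y hy).1) (h.ne hx)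
  obtain ⟨W, w1, w2, w3⟩ := Weil93.exists_nice (I := I) x _ (hL.and (hO.mem_nhds hx))
  exact ⟨W, w2, mem_of_mem_nhds w1, fun y hy => (w3 hy).2, (h.mono fun y hy => (w3 hy).2).lg w2.op
    ⟨L, fun y hy => (w3 hy).1.1.continuousAt.continuousWithinAt, fun y hy => (w3 hy).1.2⟩⟩

/-- a unit as a circle valued map -/
theorem Ut.circ (h : Ut I c O) (hO : IsOpen O) : ∃ g : M → Circle, ∀ x ∈ O, CSm I g x ∧ (g x : ℂ) = c x := by
  have e : ∀ x ∈ O, (Circle.exp (c x).arg : ℂ) = c x := fun x hx => by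
    rw [Circle.coe_exp, ← one_mul (Complex.exp _), ← Complex.ofReal_one, ← (h x hx).2,
      Complex.norm_mul_exp_arg_mul_I]
  refine ⟨fun x => Circle.exp (c x).arg, fun x hx => ⟨?_, e x hx⟩⟩
  obtain ⟨W, w1, w2, w3, t, ht⟩ := h.loc hO hx
  exact ((contMDiff_circleExp _).comp x (ht x w2).1).congr_of_eventuallyEq
    (eventually_of_mem (w1.op.mem_nhds w2) fun y hy => Circle.ext ((e y (w3 hy)).trans (ht y hy).2))

/-- a circle valued map with exact angular form has an argument -/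
theorem lg_of_ex (hO : IsOpen O) {g : M → Circle} (hg : ∀ x ∈ O, CSm I g x) (h : Dr59.Ex I O (ang I g)) :
    Lg I (fun x => (g x : ℂ)) O := by
  obtain ⟨f, hf⟩ := Weil93.exists_df hO h (dg_ang g)
  have u : Ut I (fun x => (g x : ℂ)) O := fun x hx =>
    ⟨(Line51.contMDiff_coe _).comp x (hg x hx), Circle.norm_coe _⟩
  have e := Ut.exp (I := I) fun x hx => (hf x hx).1
  have k : Lg I ((fun x => (g x : ℂ)) * (fun x => (Circle.exp (f x) : ℂ))⁻¹) O :=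
    lg_of_lc (fun x hx => ((u.mul e.inv) x hx).2) fun x hx => by
      obtain ⟨W, w1, w2, w3, t, ht⟩ := u.loc hO hx
      obtain ⟨r, hr⟩ := Weil93.const_of_df (I := I) (f := t - f) w1.op w1.pc fun y hy =>
        ⟨(ht y hy).1.sub (hf y (w3 hy)).1, by
          rw [Dr59.df_sub (ht y hy).1 (hf y (w3 hy)).1, (hf y (w3 hy)).2, ← ang_exp (ht y hy).1,
            ang_congr (g := g) (eventually_of_mem (w1.op.mem_nhds hy) fun z hz => Circle.ext (ht z hz).2),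
            sub_self]⟩
      have q : ∀ y ∈ W, ((fun x => (g x : ℂ)) * (fun x => (Circle.exp (f x) : ℂ))⁻¹) y = Circle.exp r :=
        fun y hy => by
          rw [← hr y hy, Pi.sub_apply, Circle.exp_sub, Circle.coe_div, ← (ht y hy).2, div_eq_mul_inv]; rfl
      exact eventually_of_mem (w1.op.mem_nhds w2) fun y hy => (q y hy).trans (q x w2).symm
  exact (k.mul ⟨f, fun x hx => ⟨(hf x hx).1, rfl⟩⟩).congr fun x _ => by
    simp only [Pi.mul_apply, Pi.inv_apply]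
    rw [inv_mul_cancel_right₀ (Circle.coe_ne_zero _)]

/-- **units have arguments if `b₁ = 0`** -/
theorem lg_of_hz (hO : IsOpen O) (h : HZ I 1 O) (hc : Ut I c O) : Lg I c O := by
  obtain ⟨g, hg⟩ := hc.circ hO
  exact (lg_of_ex hO (fun x hx => (hg x hx).1) (h _ (cl_ang fun x hx => (hg x hx).1))).congr
    fun x hx => (hg x hx).2.symm

/-! ### splitting of units -/

variable (I) in
/-- the unit `c` of the overlap is a quotient of units of `U` and `V` -/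
def Sq (U V : Set M) (c : M → ℂ) : Prop := ∃ a b, Ut I a U ∧ Ut I b V ∧ ∀ x ∈ U ∩ V, a x = b x * c x

variable (I) in
/-- all units of the overlap split -/
def Spl (U V : Set M) : Prop := ∀ c, Ut I c (U ∩ V) → Sq I U V c

theorem Sq.congr (h : Sq I U V c) (e : EqOn c' c (U ∩ V)) : Sq I U V c' :=
  let ⟨a, b, h1, h2, h3⟩ := h; ⟨a, b, h1, h2, fun x hx => by rw [h3 x hx, e hx]⟩

theorem Sq.mul (h : Sq I U V c) (h' : Sq I U V c') : Sq I U V (c * c') :=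
  let ⟨a, b, h1, h2, h3⟩ := h; let ⟨a', b', k1, k2, k3⟩ := h'
  ⟨a * a', b * b', h1.mul k1, h2.mul k2, fun x hx => by
    simp only [Pi.mul_apply]; rw [h3 x hx, k3 x hx]; ring⟩

theorem Sq.inv (h : Sq I U V c) : Sq I U V c⁻¹ :=
  let ⟨a, b, h1, h2, h3⟩ := h
  ⟨a⁻¹, b⁻¹, h1.inv, h2.inv, fun x hx => by simp only [Pi.inv_apply]; rw [h3 x hx, mul_inv]⟩

theorem Sq.left (h : Ut I c U) : Sq I U V c := ⟨c, 1, h, .one, fun _ _ => (one_mul _).symm⟩

theorem Sq.right (h : Ut I c V) : Sq I U V c :=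
  ⟨1, c⁻¹, .one, h.inv, fun _ hx => (inv_mul_cancel₀ (h.ne hx.2)).symm⟩

theorem fsm_cz {χ t : M → ℝ} {X W : Set M} (h : Dr59.Cz I X W χ) (ht : ∀ x ∈ W, FSm I t x) :
    ∀ x ∈ X, FSm I (χ * t) x := fun x hx => by
  by_cases hw : x ∈ W
  · exact (h.sm x hx).mul (ht x hw)
  · exact (contMDiffAt_const (c := (0 : ℝ))).congr_of_eventuallyEq
      ((h.z x hx hw).mono fun y hy => by rw [Pi.mul_apply, hy]; exact zero_mul _)

variable [T2Space M] [SigmaCompactSpace M]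

theorem Lg.sq (hU : IsOpen U) (hV : IsOpen V) (h : Lg I c (U ∩ V)) : Sq I U V c := by
  obtain ⟨t, ht⟩ := h
  obtain ⟨χ, hχ⟩ := exists_cut (I := I) hU hV
  refine ⟨_, _, .exp (fsm_cz hχ.czU fun x hx => (ht x hx).1),
    (Ut.exp (fsm_cz hχ.czV fun x hx => (ht x hx).1)).inv, fun x hx => ?_⟩
  rw [(ht x hx).2, Pi.inv_apply, ← Circle.coe_inv, ← Circle.coe_mul, ← Circle.exp_neg, ← Circle.exp_add]
  congr 2
  simp only [Pi.mul_apply, Pi.sub_apply, Pi.one_apply]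
  ring

theorem spl_of_hz (hU : IsOpen U) (hV : IsOpen V) (h : HZ I 1 (U ∩ V)) : Spl I U V :=
  fun _ hc => (lg_of_hz (hU.inter hV) h hc).sq hU hV

variable (I) in
/-- every unit of `O` is a power of `g` up to an exponential -/
def Gen (g : M → ℂ) (O : Set M) : Prop := Ut I g O ∧ ∀ c, Ut I c O → ∃ m : ℤ, Lg I (c * (g ^ m)⁻¹) O

theorem Gen.sq (hU : IsOpen U) (hV : IsOpen V) {g : M → ℂ} (h : Gen I g (U ∩ V)) (hc : Ut I c (U ∩ V)) :
    ∃ m : ℤ, Sq I U V (c * (g ^ m)⁻¹) := (h.2 c hc).imp fun _ k => k.sq hU hV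

theorem Sq.zpow (h : Sq I U V c) (m : ℤ) : Sq I U V (c ^ m) :=
  let ⟨a, b, h1, h2, h3⟩ := h
  ⟨a ^ m, b ^ m, h1.zpow m, h2.zpow m, fun x hx => by simp only [Pi.pow_apply]; rw [h3 x hx, mul_zpow]⟩

/-- the generator extends over one side -/
theorem Gen.spl (hU : IsOpen U) (hV : IsOpen V) {g : M → ℂ} (h : Gen I g (U ∩ V)) (k : Sq I U V g) :
    Spl I U V := fun c hc =>
  let ⟨m, e⟩ := h.sq hU hV hc
  (e.mul (k.zpow m)).congr fun x hx => by
    simp only [Pi.mul_apply, Pi.inv_apply]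
    rw [inv_mul_cancel_right₀ ((h.1.zpow m).ne hx)]

theorem Sq.lg (hU : IsOpen U) (hV : IsOpen V) (h1 : HZ I 1 U) (h2 : HZ I 1 V) (h : Sq I U V c) :
    Lg I c (U ∩ V) :=
  let ⟨_, _, k1, k2, k3⟩ := h
  (((lg_of_hz hU h1 k1).mono inter_subset_left).mul ((lg_of_hz hV h2 k2).mono inter_subset_right).inv).congr
    fun x hx => by
      simp only [Pi.mul_apply, Pi.inv_apply]
      rw [k3 x hx, mul_comm, inv_mul_cancel_left₀ (k2.ne hx.2)]

theorem sl_of_hz (hO : IsOpen O) (h : HZ I 1 O) : Gm56.SL I O := fun _ hc => by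
  simpa only [Lg, Circle.coe_exp] using lg_of_hz hO h hc

theorem spl_of_sl (hU : IsOpen U) (hV : IsOpen V) (h : Gm56.SL I (U ∩ V)) : Spl I U V := fun c hc =>
  Lg.sq hU hV (by simpa only [Lg, Circle.coe_exp] using h c hc)

omit [T2Space M] [SigmaCompactSpace M] in
theorem Lg.ex {g : M → Circle} (hO : IsOpen O) (h : Lg I (fun x => (g x : ℂ)) O) : Dr59.Ex I O (ang I g) :=
  let ⟨_, e⟩ := h
  (Dr59.ex_df fun x hx => (e x hx).1).congr fun x hx => by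
    rw [← ang_exp (e x hx).1]
    exact ang_congr (eventually_of_mem (hO.mem_nhds hx) fun y hy => Circle.ext (e y hy).2)

omit [T2Space M] [SigmaCompactSpace M] [I.Boundaryless] in
/-- no power of a unit with a section has an argument -/
theorem not_lg {g : M → ℂ} {γ : Circle → M} (hγ : Continuous γ) (hm : ∀ z, γ z ∈ O) (e : ∀ z, g (γ z) = z)
    {m : ℤ} (h : Lg I (g ^ m) O) : m = 0 :=
  Pic56.deg_unique ((h.hasLog.comp (T := univ) hγ.continuousOn fun z _ => hm z).congr fun z _ => by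
    simp only [Pi.pow_apply, e])

omit [T2Space M] [SigmaCompactSpace M] in
/-- **a unit with a section generates if `b₁ ≤ 1`** -/
theorem gen_of_loop (hO : IsOpen O) (hb : Dr59.Bd I 1 O 1) {g : M → ℂ} (hg : Ut I g O) {γ : Circle → M}
    (hγ : ContMDiff (𝓡 1) I ∞ γ) (hm : ∀ z, γ z ∈ O) (e : ∀ z, g (γ z) = z) : Gen I g O := by
  refine ⟨hg, fun c hc => ?_⟩
  obtain ⟨m, hj⟩ := Pic56.exists_deg_circle (φ := c ∘ γ)
    (continuous_iff_continuousAt.2 fun z => (hc _ (hm z)).1.continuousAt.comp hγ.continuous.continuousAt)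
    fun z => hc.ne (hm z)
  have u := hc.mul (hg.zpow m).inv
  obtain ⟨G, hG⟩ := hg.circ hO
  obtain ⟨C, hC⟩ := u.circ hO
  have mp : Dr59.Mp (𝓡 1) I univ O γ := ⟨fun z _ => hγ z, fun z _ => hm z⟩
  have key : ∀ r : ℝ, Dr59.Ex (𝓡 1) univ (r • Dr59.pm (𝓡 1) I γ (ang I G)) → r = 0 := fun r k => by
    by_contra h0
    have k1 : Dr59.Ex (𝓡 1) univ (ang (𝓡 1) (id : Circle → Circle)) := (k.smul r⁻¹).congr fun z _ => by
      rw [inv_smul_smul₀ h0, Line51.pm_ang (hG _ (hm z)).1 ((hγ z).mdifferentiableAt (by simp))]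
      exact congrArg (ang _ · z) (funext fun w => Circle.ext (((hG _ (hm w)).2.trans (e w)).symm))
    exact one_ne_zero (Pic56.deg_unique (j := 1) ((lg_of_ex isOpen_univ (fun _ _ => contMDiffAt_id) k1).hasLog.congr
      fun z _ => zpow_one _))
  have cG := cl_ang fun x hx => (hG x hx).1
  have cC := cl_ang fun x hx => (hC x hx).1
  obtain ⟨r, hr⟩ := Dr59.Bd.span (ι := Unit) hb (e := fun _ => cG.cls) (fun r k _ => key _ (by
    rw [Fintype.sum_unique, ← Dr59.cls_smul, Dr59.cls_eq_zero] at k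
    simpa only [Dr59.pm_smul] using k.pm mp)) cC.cls
  rw [Fintype.sum_unique, ← Dr59.cls_smul, Dr59.cls_eq] at hr
  have l : Lg (𝓡 1) (fun z => (C (γ z) : ℂ)) univ :=
    Ut.lg (fun z _ => ⟨(Line51.contMDiff_coe _).comp z ((hC _ (hm z)).1.comp z (hγ z)), Circle.norm_coe _⟩)
      isOpen_univ (hj.congr fun z _ => by simp only [(hC _ (hm z)).2, Pi.mul_apply, Pi.inv_apply, Pi.pow_apply, e,
        Function.comp_apply])
  have r0 : r default = 0 := key _ (((hr.pm mp).add (Lg.ex (g := C ∘ γ) isOpen_univ l)).congr fun z _ => by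
    rw [Pi.add_apply, ← Line51.pm_ang (hC _ (hm z)).1 ((hγ z).mdifferentiableAt (by simp)), Dr59.pm_sub,
      Dr59.pm_smul, Pi.sub_apply, sub_add_cancel])
  rw [r0, zero_smul, zero_sub] at hr
  exact ⟨m, (lg_of_ex hO (fun x hx => (hC x hx).1) (by simpa using hr.neg)).congr fun x hx => (hC x hx).2.symm⟩

omit [T2Space M] [SigmaCompactSpace M] [I.Boundaryless] in
/-- transport of generators -/
theorem Gen.comp {g : N → ℂ} {W : Set N} {f : N → M} {j : M → N} (h : Gen I' g W)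
    (hf : ∀ y ∈ W, ContMDiffAt I' I ∞ f y) (mf : MapsTo f W O) (hj : ∀ x ∈ O, ContMDiffAt I I' ∞ j x)
    (mj : MapsTo j O W) (e : ∀ x ∈ O, f (j x) = x) : Gen I (g ∘ j) O :=
  ⟨h.1.comp hj mj, fun c hc => (h.2 _ (hc.comp hf mf)).imp fun _ k => (k.comp hj mj).congr fun x hx => by
    simp only [Function.comp_apply, Pi.mul_apply, Pi.inv_apply, Pi.pow_apply, e x hx]⟩

omit [T2Space M] [SigmaCompactSpace M] [I.Boundaryless] in
theorem Gen.congr {g g' : M → ℂ} (h : Gen I g O) (hO : IsOpen O) (e : EqOn g' g O) : Gen I g' O :=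
  ⟨h.1.congr hO e, fun c hc => (h.2 c hc).imp fun _ k => k.congr fun x hx => by
    simp only [Pi.mul_apply, Pi.inv_apply, Pi.pow_apply, e hx]⟩

omit [T2Space M] [SigmaCompactSpace M] [I.Boundaryless] in
/-- a unit of a cylinder is its slice up to an exponential -/
theorem lg_slice {J : Set ℝ} (hJ : IsOpen J) (hc : OrdConnected J) {s : ℝ} (hs : s ∈ J) {c : M × ℝ → ℂ}
    (h : Ut (I.prod 𝓘(ℝ, ℝ)) c (univ ×ˢ J)) :
    Lg (I.prod 𝓘(ℝ, ℝ)) (c * (fun z => c (z.1, s))⁻¹) (univ ×ˢ J) :=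
  (Gm56.exists_slice hJ hc hs h).imp fun r k z hz => ⟨(k z hz).1, by
    rw [Pi.mul_apply, (k z hz).2, Pi.inv_apply, mul_comm, inv_mul_cancel_left₀ (h.ne (x := (z.1, s)) ⟨trivial, hs⟩),
      Circle.coe_exp]⟩

omit [T2Space M] [SigmaCompactSpace M] [I.Boundaryless] in
theorem Gen.cyl {g : M → ℂ} (h : Gen I g univ) {J : Set ℝ} (hJ : IsOpen J) (hc : OrdConnected J) :
    Gen (I.prod 𝓘(ℝ, ℝ)) (g ∘ Prod.fst) (univ ×ˢ J) := by
  refine ⟨h.1.comp (fun _ _ => contMDiffAt_fst) (mapsTo_univ _ _), fun c k => ?_⟩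
  rcases J.eq_empty_or_nonempty with rfl | ⟨s, hs⟩
  · exact ⟨0, 0, fun z hz => hz.2.elim⟩
  obtain ⟨m, e⟩ := h.2 _ (k.comp (f := fun y => (y, s)) (W := univ)
    (fun _ _ => contMDiffAt_id.prodMk contMDiffAt_const) fun _ _ => ⟨trivial, hs⟩)
  exact ⟨m, ((lg_slice hJ hc hs k).mul (e.comp (f := Prod.fst) (fun _ _ => contMDiffAt_fst)
    (mapsTo_univ _ _))).congr fun z _ => by
      simp only [Function.comp_apply, Pi.mul_apply, Pi.inv_apply, Pi.pow_apply]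
      rw [mul_assoc, inv_mul_cancel_left₀ (k.ne (x := (z.1, s)) ⟨trivial, hs⟩)]⟩

/-! ### classes -/

variable {d : Sc I M ι κ} {d' : Sc I M ι' l} {u w : M → Matrix l κ ℂ}

theorem iw_smul (i : Iw d d' u O) (h : Ut I c O) : Iw d d' (fun x => c x • u x) O :=
  CI.smul' i (fun x hx => (h x hx).1) fun x hx => (h x hx).2

theorem iw_glue (hU : IsOpen U) (hV : IsOpen V) (i : Iw d d' u U) (j : Iw d d' w V) (e : EqOn u w (U ∩ V)) :
    Iw d d' (glue U u w) (U ∪ V) :=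
  have i' := i.congr hU (glue_left (a := u) (b := w))
  have j' := j.congr hV (glue_right e)
  ⟨fun x hx => hx.elim (i'.sm x) (j'.sm x), fun x hx => hx.elim (i'.un x) (j'.un x)⟩

theorem eqv_of_sq (hU : IsOpen U) (hV : IsOpen V) (i : Iw d d' u U) (j : Iw d d' w V)
    (e : ∀ x ∈ U ∩ V, u x = c x • w x) (h : Sq I U V c) : Eqv d d' (U ∪ V) :=
  let ⟨_, _, h1, h2, h3⟩ := h.inv
  ⟨_, iw_glue hU hV (iw_smul i h1) (iw_smul j h2) fun x hx => by
    have k : c x ≠ 0 := fun z => h1.ne hx.1 (by rw [h3 x hx, Pi.inv_apply, z, _root_.inv_zero, mul_zero])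
    rw [h3 x hx, e x hx, smul_smul, Pi.inv_apply, inv_mul_cancel_right₀ k]⟩

theorem ratio (h : d.On O) (h' : d'.On O) (i : Iw d d' u O) (j : Iw d d' w O) :
    ∃ c, Ut I c O ∧ ∀ x ∈ O, w x = c x • u x :=
  let ⟨c, e⟩ := i.ratio h h' j
  ⟨c, fun x hx => ⟨(e x hx).1, (e x hx).2.1⟩, fun x hx => (e x hx).2.2⟩

theorem eqv_union (hU : IsOpen U) (hV : IsOpen V) (s : Spl I U V) (h : d.On (U ∩ V)) (h' : d'.On (U ∩ V))
    (i : Eqv d d' U) (j : Eqv d d' V) : Eqv d d' (U ∪ V) := by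
  obtain ⟨u, i⟩ := i
  obtain ⟨w, j⟩ := j
  obtain ⟨c, k, e⟩ := ratio h h' (j.mono inter_subset_right) (i.mono inter_subset_left)
  exact eqv_of_sq hU hV i j e (s c k)

/-- **a class is determined by its two restrictions** -/
theorem cls_inj (hU : IsOpen U) (hV : IsOpen V) (hc : O ⊆ U ∪ V) (s : Spl I U V) (h1 : U ⊆ O) (h2 : V ⊆ O)
    {p q : Cls I O} (e : p.res h1 = q.res h1) (e' : p.res h2 = q.res h2) : p = q := by
  obtain ⟨p⟩ := p
  obtain ⟨q⟩ := q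
  exact Quot.sound ((eqv_union hU hV s (p.ok.mono (inter_subset_left.trans h1))
    (q.ok.mono (inter_subset_left.trans h1)) ((mk_eq_iff hU).1 e) ((mk_eq_iff hV).1 e')).mono hc)

/-! ### gluing with a transition function -/

section gd

open Crest.Agent.X212.Gm56 (Rp LE)
open Crest.Agent.X212.Met55 (VF fP)

variable {P : M → Matrix ι ι ℝ} {e : ι → VF I M} {m₁ m₂ : C8 M ι κ} {g : C8 M ι l} {g' : C8 M ι n}
  {p q : Cls I (univ : Set M)}

variable (I) in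
/-- `g` is glued from `m₁` on `U` and `m₂` on `V` with the transition function `c` -/
def Gd (U V : Set M) (m₁ m₂ : C8 M ι κ) (c : M → ℂ) (g : C8 M ι l) : Prop :=
  ∃ a b, CI I m₁ g a U ∧ CI I m₂ g b V ∧ ∀ x ∈ U ∩ V, a x = c x • b x

theorem ci_smul {m : C8 M ι κ} {u : M → Matrix l κ ℂ} (i : CI I m g u O) (h : Ut I c O) :
    CI I m g (fun x => c x • u x) O := i.smul' (fun x hx => (h x hx).1) fun x hx => (h x hx).2

theorem exists_gd (hU : IsOpen U) (hV : IsOpen V) (hc : U ∪ V = univ) (h₁ : m₁.On I P U) (h₂ : m₂.On I P V)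
    (r : LE m₁ m₂ (U ∩ V)) (k : Ut I c (U ∩ V)) : ∃ g : C8 M ι (κ ⊕ κ), g.On I P univ ∧ Gd I U V m₁ m₂ c g := by
  obtain ⟨g, a, b, g1, g2, g3, g4⟩ := C8.exists_glue hU hV hc h₁ h₂
    (ci_smul (r.ci (h₁.mono inter_subset_left)) k)
  exact ⟨g, g1, a, b, g2, g3, fun x hx => by
    rw [← g4 x hx, Matrix.mul_smul, ← (r x hx).1, (g3.un x hx.2).iso.idem]⟩

theorem gd_of (h₂ : m₂.On I P V) (r : LE m₁ m₂ (U ∩ V)) (hg : g.On I P univ)
    {a b : M → Matrix l κ ℂ} (i : CI I m₁ g a U) (j : CI I m₂ g b V) : ∃ c, Ut I c (U ∩ V) ∧ Gd I U V m₁ m₂ c g :=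
  let ⟨c, k⟩ := Gm56.CI.ratio (h₂.mono inter_subset_right) (hg.mono (subset_univ _)) (j.mono inter_subset_right)
    ((i.mono inter_subset_left).of_eq r fun _ _ => ⟨rfl, rfl⟩)
  ⟨c, fun x hx => ⟨(k x hx).1, (k x hx).2.1⟩, a, b, i, j, fun x hx => (k x hx).2.2⟩

theorem Gd.ci (h : Gd I U V m₁ m₂ c g) {w : M → Matrix n l ℂ} (i : CI I g g' w univ) : Gd I U V m₁ m₂ c g' :=
  let ⟨_, _, h1, h2, h3⟩ := h
  ⟨_, _, h1.trans (i.mono (subset_univ _)), h2.trans (i.mono (subset_univ _)), fun x hx => by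
    rw [h3 x hx, Matrix.mul_smul]⟩

theorem Gd.sq (h : Gd I U V m₁ m₂ c g) (k : Sq I U V c') : Gd I U V m₁ m₂ (c' * c) g :=
  let ⟨_, _, h1, h2, h3⟩ := h; let ⟨_, _, k1, k2, k3⟩ := k
  ⟨_, _, ci_smul h1 k1, ci_smul h2 k2, fun x hx => by
    rw [h3 x hx, k3 x hx, smul_smul, smul_smul, Pi.mul_apply]; congr 1; ring⟩

theorem Gd.iso (hU : IsOpen U) (hV : IsOpen V) (hc : U ∪ V = univ) (h₁ : m₁.On I P U) (h₂ : m₂.On I P V)
    (hg : g.On I P univ) (k : Ut I c (U ∩ V)) (h : Gd I U V m₁ m₂ c g) (h' : Gd I U V m₁ m₂ c g') :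
    ∃ w, CI I g g' w univ := by
  obtain ⟨a, b, h1, h2, h3⟩ := h
  obtain ⟨a', b', k1, k2, k3⟩ := h'
  have i := (h1.symm h₁ (hg.mono (subset_univ _))).trans k1
  have j := (h2.symm h₂ (hg.mono (subset_univ _))).trans k2
  have e : EqOn (fun x => a' x * (a x)ᴴ) (fun x => b' x * (b x)ᴴ) (U ∩ V) := fun x hx => by
    simp only [h3 x hx, k3 x hx, conjTranspose_smul, Matrix.smul_mul, Matrix.mul_smul, smul_smul]
    rw [Complex.star_def, Complex.conj_mul', (k x hx).2]; simp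
  have i' := i.congr hU (glue_left (b := fun x => b' x * (b x)ᴴ))
  have j' := j.congr hV (glue_right e)
  exact ⟨_, fun x _ => (hc.ge (mem_univ x)).elim (i'.sm x) (j'.sm x),
    fun x _ => (hc.ge (mem_univ x)).elim (i'.un x) (j'.un x)⟩

theorem Gd.uniq (h₁ : m₁.On I P U) (h₂ : m₂.On I P V) (hg : g.On I P univ) (k : Ut I c (U ∩ V))
    (h : Gd I U V m₁ m₂ c g) (h' : Gd I U V m₁ m₂ c' g) : Sq I U V (c' * c⁻¹) := by
  obtain ⟨a, b, h1, h2, h3⟩ := h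
  obtain ⟨a', b', k1, k2, k3⟩ := h'
  obtain ⟨α, e1⟩ := Gm56.CI.ratio h₁ (hg.mono (subset_univ _)) h1 k1
  obtain ⟨β, e2⟩ := Gm56.CI.ratio h₂ (hg.mono (subset_univ _)) h2 k2
  refine ⟨α, β, fun x hx => ⟨(e1 x hx).1, (e1 x hx).2.1⟩, fun x hx => ⟨(e2 x hx).1, (e2 x hx).2.1⟩, fun x hx => ?_⟩
  have e := k3 x hx
  rw [(e1 x hx.1).2.2, (e2 x hx.2).2.2, h3 x hx, smul_smul, smul_smul] at e
  have b0 : b x ≠ 0 := fun z => by
    have t := (h₂.pc x hx.2).tr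
    rw [← (h2.un x hx.2).iso.src, z] at t
    simp at t
  rw [Pi.mul_apply, Pi.inv_apply, ← mul_assoc, mul_comm (β x), ← smul_left_injective ℂ b0 e,
    mul_inv_cancel_right₀ (k.ne hx)]

/-- **two glued classes agree iff the quotient of the transition functions splits** -/
theorem Gd.eq_iff (hU : IsOpen U) (hV : IsOpen V) (hc : U ∪ V = univ) (h₁ : m₁.On I (fP e) U)
    (h₂ : m₂.On I (fP e) V) (k : Ut I c (U ∩ V)) (k' : Ut I c' (U ∩ V)) (h : Gd I U V m₁ m₂ c g)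
    (h' : Gd I U V m₁ m₂ c' g') (a : Rp e g p) (a' : Rp e g' q) : p = q ↔ Sq I U V (c' * c⁻¹) := by
  refine ⟨fun r => ?_, fun s => ?_⟩
  · obtain ⟨w, i⟩ := a.ci (r ▸ a')
    exact (h.ci i).uniq h₁ h₂ a'.on k h'
  · obtain ⟨α, β, h1, h2, h3⟩ := h.sq s
    obtain ⟨w, i⟩ := Gd.iso hU hV hc h₁ h₂ a.on k' ⟨α, β, h1, h2, fun x hx => by
      rw [h3 x hx, Pi.mul_apply, Pi.mul_apply, Pi.inv_apply, inv_mul_cancel_right₀ (k.ne hx)]⟩ h'
    exact (a.of_ci a'.on i).uniq a'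

variable {u : M → ℂ} {G : ℤ → C8 M ι l} {D : ℤ → Cls I (univ : Set M)}

/-- the classes glued with the powers of `u` are different -/
theorem tor_inj (hU : IsOpen U) (hV : IsOpen V) (hc : U ∪ V = univ) (h₁ : m₁.On I (fP e) U)
    (h₂ : m₂.On I (fP e) V) (k : Ut I u (U ∩ V)) (ns : ∀ j : ℤ, Sq I U V (u ^ j) → j = 0)
    (h : ∀ j, Gd I U V m₁ m₂ (u ^ j) (G j)) (a : ∀ j, Rp e (G j) (D j)) : Injective D := fun i j r =>
  (sub_eq_zero.1 (ns (j - i) ((((h i).eq_iff hU hV hc h₁ h₂ (k.zpow i) (k.zpow j) (h j) (a i) (a j)).1 r).congr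
    fun x hx => by simp only [Pi.mul_apply, Pi.inv_apply, Pi.pow_apply]; rw [zpow_sub₀ (k.ne hx), div_eq_mul_inv]))).symm

/-- every class with the two restrictions is glued with a power of the generator -/
theorem tor_surj (hU : IsOpen U) (hV : IsOpen V) (hc : U ∪ V = univ) (h₁ : m₁.On I (fP e) U)
    (h₂ : m₂.On I (fP e) V) (r : LE m₁ m₂ (U ∩ V)) (k : Gen I u (U ∩ V))
    (h : ∀ j, Gd I U V m₁ m₂ (u ^ j) (G j)) (a : ∀ j, Rp e (G j) (D j)) (b : Rp e g' p)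
    (i : ∃ α, CI I m₁ g' α U) (i' : ∃ β, CI I m₂ g' β V) : ∃ j, D j = p := by
  obtain ⟨α, i⟩ := i
  obtain ⟨β, i'⟩ := i'
  obtain ⟨c, k1, k2⟩ := gd_of h₂ r b.on i i'
  exact (k.sq hU hV k1).imp fun j s => ((h j).eq_iff hU hV hc h₁ h₂ (k.1.zpow j) k1 k2 (a j) b).2 s

end gd

end Crest.Agent.X212.Mv17
end
end

-- ▼ part X212/Mv17/Gl

/-!
# X212 / Mv17, part Gl (helper17): classes and forms along necks

* `cyl_inj`, `pb_up`, `end_ex`, `end_uniq`, `pb_ext`, `pb_ag` : classes on cylinders and ends;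
* `trunc_inj`, `trunc_surj` : truncation of an end;
* `glue_inj`, `glue_ex`, `cur_glue`, `ip_two` : two pieces;
* `rs_fun`, `rs_mt`, `exists_rs`, `rs_inj`, `eqv` : the same for `Gl`.
-/

set_option autoImplicit false
set_option linter.unusedSectionVars false

open Set Filter Topology Function
open scoped ContDiff Manifold
open Crest.Agent.R208.F (Ext)
open Crest.Agent.X212.Bor5.T Crest.Agent.X212.Rfl19 Crest.Agent.X212.Nvg56
open Crest.Agent.X212.Lab56 (Cls mk_eq_iff ld_up up_add)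
open Crest.Agent.X212.Cyl58 (TP TIso Up)
open Crest.Agent.X212.Dr59 (HZ Cl Cs Ex Mp pm psh ip)
open Crest.Agent.X212.Rod53 (ld_pd)
open Crest.Agent.X212.Int54 (Ori)
open Crest.Agent.X212.Orx52 (Pos)
open Crest.Agent.X212.Cyf70 (IC)

noncomputable section

namespace Crest.Agent.X212.Mv17

section gen

variable {E : Type} [NormedAddCommGroup E] [NormedSpace ℝ E] [FiniteDimensional ℝ E]
  {H : Type} [TopologicalSpace H] {I : ModelWithCorners ℝ E H}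
  {M : Type} [TopologicalSpace M] [ChartedSpace H M] [IsManifold I ∞ M]
  {E₁ : Type} [NormedAddCommGroup E₁] [NormedSpace ℝ E₁] [FiniteDimensional ℝ E₁]
  {H₁ : Type} [TopologicalSpace H₁] {I₁ : ModelWithCorners ℝ E₁ H₁}
  {M₁ : Type} [TopologicalSpace M₁] [ChartedSpace H₁ M₁] [IsManifold I₁ ∞ M₁]
  {E₂ : Type} [NormedAddCommGroup E₂] [NormedSpace ℝ E₂] [FiniteDimensional ℝ E₂]
  {H₂ : Type} [TopologicalSpace H₂] {I₂ : ModelWithCorners ℝ E₂ H₂}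
  {M₂ : Type} [TopologicalSpace M₂] [ChartedSpace H₂ M₂] [IsManifold I₂ ∞ M₂]
  {F : Type} [NormedAddCommGroup F] [NormedSpace ℝ F] [FiniteDimensional ℝ F]
  {G : Type} [TopologicalSpace G] {K : ModelWithCorners ℝ F G}
  {Y : Type} [TopologicalSpace Y] [ChartedSpace G Y] [IsManifold K ∞ Y]
  {J J' : Set ℝ} {O : Set M} {d d' : Cls I (univ : Set M)} {d₁ : Cls I₁ (univ : Set M₁)}
  {d₂ : Cls I₂ (univ : Set M₂)}

/-! ### partial diffeomorphisms -/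

theorem ev_r (φ : PartialDiffeomorph I₁ I M₁ M ∞) {x : M} (hx : x ∈ φ.target) : φ ∘ φ.symm =ᶠ[𝓝 x] id :=
  eventually_of_mem (φ.open_target.mem_nhds hx) fun _ hy => φ.right_inv hy

theorem pb_iff_res (φ : PartialDiffeomorph I₁ I M₁ M ∞) : Pb φ φ.source d d₁ ↔
    d.res (subset_univ φ.target) = d₁.pull (f := φ.symm) (fun _ hx => ld_pd φ.symm hx) (mapsTo_univ _ _) := by
  refine ⟨fun ⟨a, e⟩ => ?_, fun e => ⟨fun _ hy => ld_pd φ hy, ?_⟩⟩
  · exact (pull_back d a (mapsTo_univ _ _) (fun _ hx => ld_pd φ.symm hx) (fun _ hx => φ.map_target hx) _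
      fun _ hx => ev_r φ hx).symm.trans ((congrArg _ e).trans (res_pull d₁ _ _ _))
  · exact (res_pull d _ _ fun _ hy => φ.map_source hy).symm.trans ((congrArg _ e).trans
      (pull_back d₁ _ _ _ _ _ fun _ hx => ev_r φ.symm hx))

theorem pb_inv (φ : PartialDiffeomorph I₁ I M₁ M ∞) (h : Pb φ φ.source d d₁) : Pb φ.symm φ.target d₁ d :=
  ⟨_, ((pb_iff_res φ).1 h).symm⟩

theorem res_of_pb (φ : PartialDiffeomorph I₁ I M₁ M ∞) (h : Pb φ φ.source d d₁) (h' : Pb φ φ.source d' d₁) :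
    d.res (subset_univ φ.target) = d'.res (subset_univ φ.target) :=
  ((pb_iff_res φ).1 h).trans ((pb_iff_res φ).1 h').symm

theorem pb_of_res {f : M₁ → M} {W : Set M₁} (e : d.res (subset_univ O) = d'.res (subset_univ O))
    (hm : MapsTo f W O) (h : Pb f W d d₁) : Pb f W d' d₁ :=
  ⟨h.1, by rw [← h.2, ← res_pull d' (subset_univ O) h.1 hm, ← e, res_pull]⟩

/-! ### cylinders -/

variable [T2Space Y] [SigmaCompactSpace Y] [K.Boundaryless] {s s' : Cls (IC K) (univ : Set (Y × ℝ))}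
  {f g : Y × ℝ → M}

theorem cyl_inj' (hJ : IsOpen J) (hc : OrdConnected J) (hJ' : IsOpen J') (h0 : J' ⊆ J) (hn : J'.Nonempty)
    {c c' : Cls (IC K) (Prod.snd ⁻¹' J : Set (Y × ℝ))} (e : c.res (preimage_mono h0) = c'.res (preimage_mono h0)) :
    c = c' := by
  obtain ⟨a⟩ := c
  obtain ⟨b⟩ := c'
  exact Quot.sound ((Lab56.Eqv.cyl isOpen_univ hJ hc h0 hn (a.ok.mono fun _ h => h.2) (b.ok.mono fun _ h => h.2)
    (((mk_eq_iff (hJ'.preimage continuous_snd)).1 e).mono fun _ h => h.2)).mono fun _ h => ⟨trivial, h⟩)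

theorem cyl_inj (hJ : IsOpen J) (hn : J.Nonempty)
    (e : s.res (subset_univ (Prod.snd ⁻¹' J)) = s'.res (subset_univ _)) : s = s' :=
  cyl_inj' (J := univ) isOpen_univ ordConnected_univ hJ (subset_univ J) hn e

theorem end_ex (hJ : IsOpen J) (hc : OrdConnected J) (hn : J.Nonempty)
    (h : ∀ z ∈ Prod.snd ⁻¹' J, IsLocalDiffeomorphAt (IC K) I ∞ f z) (d : Cls I (univ : Set M)) :
    ∃ s : Cls (IC K) (univ : Set (Y × ℝ)), Pb f (Prod.snd ⁻¹' J) d s :=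
  (cyl_surj hJ hc hn (d.pull h (mapsTo_univ _ _))).imp fun _ e => ⟨h, e.symm⟩

theorem end_uniq (hJ : IsOpen J) (hn : J.Nonempty) (h : Pb f (Prod.snd ⁻¹' J) d s)
    (h' : Pb f (Prod.snd ⁻¹' J) d s') : s = s' := cyl_inj hJ hn (h.2.symm.trans h'.2)

theorem pb_ext (hJ : IsOpen J) (hc : OrdConnected J) (hJ' : IsOpen J') (h0 : J' ⊆ J) (hn : J'.Nonempty)
    (h : ∀ z ∈ Prod.snd ⁻¹' J, IsLocalDiffeomorphAt (IC K) I ∞ f z) (k : Pb f (Prod.snd ⁻¹' J') d s) :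
    Pb f (Prod.snd ⁻¹' J) d s := by
  obtain ⟨s', e⟩ := end_ex hJ hc (hn.mono h0) h d
  rwa [end_uniq hJ' hn k (pb_mono e (preimage_mono h0))]

/-- **classes are invariant under increasing reparametrisations of the cylinder** -/
theorem pb_up {φ : ℝ → ℝ} (hφ : Up φ univ) (s : Cls (IC K) (univ : Set (Y × ℝ))) :
    Pb (Prod.map id φ) univ s s := by
  have key : ∀ {φ ψ : ℝ → ℝ} {J : Set ℝ}, Up ψ univ → IsOpen J → J.Nonempty → EqOn ψ φ J →
      Pb (Prod.map id φ) univ s s → Pb (Prod.map id ψ) univ s s := fun h hJ hn e k =>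
    pb_ext (J := univ) isOpen_univ ordConnected_univ hJ (subset_univ _) hn (fun z _ => ld_up h z)
      (pb_congr (pb_mono k (subset_univ _)) fun _ hz =>
        eventually_of_mem ((hJ.preimage continuous_snd).mem_nhds hz) fun _ hy => Prod.ext rfl (e hy))
  have u1 : Up id univ := fun _ _ => ⟨contDiffAt_id, by simp⟩
  obtain ⟨l, l1, l2, l3, -⟩ := Cyl58.exists_up_univ (a := min 0 (φ 0) - 1) (b := 0)
    (by linarith [min_le_left 0 (φ 0)]) u1 univ_mem (subset_univ _) hφ univ_mem (subset_univ _)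
    (by simp only [id]; linarith [min_le_right 0 (φ 0)])
  exact key hφ isOpen_Ioi nonempty_Ioi (fun t ht => (l3 t (le_of_lt ht)).symm)
    (key l1 isOpen_Iio nonempty_Iio (fun t ht => l2 t (le_of_lt ht)) pb_id)

theorem pb_sh (δ : ℝ) (e : ∀ t ∈ J, ∀ y, f (y, t) = g (y, t + δ)) (hJ : IsOpen J) (hm : ∀ t ∈ J, t + δ ∈ J')
    (k : Pb g (Prod.snd ⁻¹' J') d s) : Pb f (Prod.snd ⁻¹' J) d s :=
  pb_congr (pb_comp k (pb_mono (pb_up (up_add δ) s) (subset_univ _)) fun z hz => hm z.2 hz) fun _ hz =>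
    eventually_of_mem ((hJ.preimage continuous_snd).mem_nhds hz) fun z hz => e z.2 hz z.1

/-- the sets of the filter have interior points -/
def Fat (l : Filter ℝ) : Prop := ∀ A ∈ l, (interior A).Nonempty

theorem fat_bot : Fat atBot := fun _ h =>
  let ⟨a, k⟩ := mem_atBot_sets.1 h
  ⟨a - 1, mem_interior.2 ⟨Iio a, fun t ht => k t (le_of_lt ht), isOpen_Iio, by simp⟩⟩

theorem fat_top : Fat atTop := fun _ h =>
  let ⟨a, k⟩ := mem_atTop_sets.1 h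
  ⟨a + 1, mem_interior.2 ⟨Ioi a, fun t ht => k t (le_of_lt ht), isOpen_Ioi, by simp⟩⟩

/-- ends that agree up to a translation carry the same class -/
theorem pb_ag {l : Filter ℝ} (hl : Nd l) (hf : Fat l) (a : Ag l f g) (hJ : IsOpen J) (hc : OrdConnected J)
    (h1 : J ∈ l) (h2 : J' ∈ l) (h : ∀ z ∈ Prod.snd ⁻¹' J, IsLocalDiffeomorphAt (IC K) I ∞ f z)
    (k : Pb g (Prod.snd ⁻¹' J') d s) : Pb f (Prod.snd ⁻¹' J) d s := by
  obtain ⟨δ, a⟩ := a
  have n := hf _ (inter_mem h1 (inter_mem a (hl δ h2)))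
  exact pb_ext hJ hc isOpen_interior (interior_subset.trans inter_subset_left) n h
    (pb_sh δ (fun _ ht => (interior_subset ht).2.1) isOpen_interior (fun _ ht => (interior_subset ht).2.2) k)

/-! ### truncation -/

variable [T2Space M] [SigmaCompactSpace M] [I.Boundaryless]

section trunc

variable (φ : PartialDiffeomorph (IC K) I (Y × ℝ) M ∞) (src : φ.source = Prod.snd ⁻¹' J)
  (hp : ∀ z ∈ φ.source, φ z ∈ O ↔ z.2 ∈ J') (h0 : J' ⊆ J)
include src hp h0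

theorem spl_end (hO : IsOpen O) (hJ' : IsOpen J') (hc : OrdConnected J') (hn : J'.Nonempty) :
    Spl I O φ.target := fun c k => by
  obtain ⟨t, ht⟩ := hn
  have m : ∀ z : Y × ℝ, z.2 ∈ J' → z ∈ φ.source := fun z hz => src ▸ h0 hz
  have k1 : Ut (IC K) (c ∘ φ) (univ ×ˢ J') := k.comp (fun z hz => (ld_pd φ (m z hz.2)).contMDiffAt)
    fun z hz => ⟨(hp z (m z hz.2)).2 hz.2, φ.map_source (m z hz.2)⟩
  have s1 := fun x (hx : x ∈ φ.target) => (ld_pd φ.symm hx).contMDiffAt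
  have k2 : Ut I ((c ∘ φ) ∘ fun x => ((φ.symm x).1, t)) φ.target := k1.comp
    (fun x hx => (contMDiffAt_fst.comp x (s1 x hx)).prodMk contMDiffAt_const) fun _ _ => ⟨trivial, ht⟩
  have k3 := (lg_slice hJ' hc ht k1).comp (f := φ.symm) (W := O ∩ φ.target) (fun x hx => s1 x hx.2)
    fun x hx => ⟨trivial, (hp _ (φ.map_target hx.2)).1 ((φ.right_inv hx.2).symm ▸ hx.1)⟩
  exact ((k3.sq hO φ.open_target).mul (.right k2)).congr fun x hx => by
    exact (congrArg c (φ.right_inv hx.2).symm).trans (inv_mul_cancel_right₀ (k2.ne hx.2) _).symm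

/-- **a class is determined off an end** -/
theorem trunc_inj (hO : IsOpen O) (hu : O ∪ φ.target = univ) (hJ : IsOpen J) (hc : OrdConnected J)
    (hJ' : IsOpen J') (hc' : OrdConnected J') (hn : J'.Nonempty)
    (e : d.res (subset_univ O) = d'.res (subset_univ O)) : d = d' := by
  have l := fun z (hz : z ∈ Prod.snd ⁻¹' J) => ld_pd φ (src.ge hz)
  obtain ⟨s, k⟩ := end_ex hJ hc (hn.mono h0) l d
  have k' := pb_ext hJ hc hJ' h0 hn l (pb_of_res e (fun z hz => (hp z (src.ge (h0 hz))).2 hz)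
    (pb_mono k (preimage_mono h0)))
  exact cls_inj hO φ.open_target hu.ge (spl_end φ src hp h0 hO hJ' hc' hn) _ _ e
    (res_of_pb φ (src ▸ k) (src ▸ k'))

/-- **classes extend over an end** -/
theorem trunc_surj (hO : IsOpen O) (hu : O ∪ φ.target = univ) (hJ' : IsOpen J') (hc' : OrdConnected J')
    (hn : J'.Nonempty) (c : Cls I O) : ∃ d : Cls I (univ : Set M), d.res (subset_univ O) = c := by
  have hf := fun z (hz : z ∈ Prod.snd ⁻¹' J') => ld_pd φ (src.ge (h0 hz))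
  have hm : MapsTo φ (Prod.snd ⁻¹' J') O := fun z hz => (hp z (src.ge (h0 hz))).2 hz
  obtain ⟨t, ht⟩ := hn
  obtain ⟨s, e⟩ := cyl_surj hJ' hc' ⟨t, ht⟩ (c.pull hf hm)
  rcases isEmpty_or_nonempty M with _ | _
  · obtain ⟨a⟩ := c
    have : O = univ := Subsingleton.elim _ _
    subst this
    exact ⟨Quot.mk _ a, rfl⟩
  refine (cls_glue hO φ.open_target hu c
    (s.pull (fun _ hx => ld_pd φ.symm hx) (mapsTo_univ _ _)) ?_).imp fun _ h => h.1
  refine (pull_back (U := O ∩ φ.target) c hf hm (fun _ hx => ld_pd φ.symm hx.2) (fun x hx => (hp _ (φ.map_target hx.2)).1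
    ((φ.right_inv hx.2).symm ▸ hx.1)) _ fun _ hx => ev_r φ hx.2).symm.trans ?_
  exact (congrArg _ e.symm).trans ((res_pull s _ _ _).trans (pull_res s _ _ _).symm)

end trunc

/-! ### two pieces -/

section two

variable (l : PartialDiffeomorph I₁ I M₁ M ∞) (r : PartialDiffeomorph I₂ I M₂ M ∞)
  (hc : l.target ∪ r.target = univ)
include hc

theorem glue_inj (h : Spl I l.target r.target) (a : Pb l l.source d d₁) (a' : Pb l l.source d' d₁)
    (b : Pb r r.source d d₂) (b' : Pb r r.source d' d₂) : d = d' :=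
  cls_inj l.open_target r.open_target hc.ge h _ _ (res_of_pb l a a') (res_of_pb r b b')

/-- classes that agree on the neck `n` glue -/
theorem glue_ex [Nonempty M] {Z : Type} [TopologicalSpace Z] [ChartedSpace G Z] [IsManifold K ∞ Z]
    (n : PartialDiffeomorph K I Z M ∞) (hn : n.target = l.target ∩ r.target) {s : Cls K (univ : Set Z)}
    (a : Pb (l.symm ∘ n) n.source d₁ s) (b : Pb (r.symm ∘ n) n.source d₂ s) :
    ∃ d : Cls I (univ : Set M), Pb l l.source d d₁ ∧ Pb r r.source d d₂ := by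
  have m := fun x (hx : x ∈ l.target ∩ r.target) => n.map_target (hn.ge hx)
  have ld := fun x (hx : x ∈ l.target ∩ r.target) => ld_pd n.symm (hn.ge hx)
  refine (cls_glue l.open_target r.open_target hc (d₁.pull (fun _ hx => ld_pd l.symm hx) (mapsTo_univ _ _))
    (d₂.pull (fun _ hx => ld_pd r.symm hx) (mapsTo_univ _ _)) ?_).imp fun _ h =>
      ⟨(pb_iff_res l).2 h.1, (pb_iff_res r).2 h.2⟩
  have e := congrArg (·.pull (f := n.symm) ld m) (a.2.trans b.2.symm)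
  have e' := (d₁.pull_pull _ _ ld m).symm.trans (e.trans (d₂.pull_pull _ _ ld m))
  exact (pull_res d₁ _ _ _).trans ((d₁.pull_congr _ _ _ _ fun x hx => (ev_r n (hn.ge hx)).fun_comp l.symm).trans
    (e'.trans ((d₂.pull_congr (f := r.symm) (fun _ hx => ld_pd r.symm hx.2) (mapsTo_univ _ _) _ _
      fun x hx => (ev_r n (hn.ge hx)).fun_comp r.symm).symm.trans (pull_res d₂ _ _ inter_subset_right).symm)))

omit hc [T2Space M] [SigmaCompactSpace M] in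
theorem cur_of_ex {c c' : M → Ext E} (h : Cur d c) (h' : Cl I 2 univ c') (e : Ex I univ (c' - c)) : Cur d c' := by
  obtain ⟨b, h1, h2, h3⟩ := e.deg (k := 1) (h'.dg.sub (cur_cl h).dg)
  rw [show c' = c + Dr59.dM I b from funext fun x => by rw [Pi.add_apply, h3 x trivial, Pi.sub_apply]; abel]
  exact cur_add h h1 h2

omit hc [T2Space M] [SigmaCompactSpace M] in
theorem ex_tgt [T2Space M₁] [SigmaCompactSpace M₁] [I₁.Boundaryless] {c c' : M → Ext E} {c₁ : M₁ → Ext E₁}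
    (a : Pb l l.source d d₁) (k : Cur d c) (k₁ : Cur d₁ c₁) (e : Ex I₁ l.source (pm I₁ I l c' - c₁)) :
    Ex I l.target (c' - c) :=
  l.image_source_eq_target ▸ Dr59.ex_pd l l.open_source subset_rfl
    ((e.trans (cur_pb l.open_source a k₁ k).symm).congr fun y _ => by rw [Dr59.pm_sub])

/-- **curvature forms glue along a neck with `b₁ = 0`** -/
theorem cur_glue [T2Space M₁] [SigmaCompactSpace M₁] [I₁.Boundaryless] [T2Space M₂] [SigmaCompactSpace M₂]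
    [I₂.Boundaryless] (h : HZ I 1 (l.target ∩ r.target)) (a : Pb l l.source d d₁) (b : Pb r r.source d d₂)
    {c : M → Ext E} {c₁ : M₁ → Ext E₁} {c₂ : M₂ → Ext E₂} (k₁ : Cur d₁ c₁) (k₂ : Cur d₂ c₂) (k : Cl I 2 univ c)
    (e₁ : Ex I₁ l.source (pm I₁ I l c - c₁)) (e₂ : Ex I₂ r.source (pm I₂ I r c - c₂)) : Cur d c := by
  obtain ⟨c₀, k₀⟩ := exists_cur d
  exact cur_of_ex k₀ k (hc ▸ Dr59.ex_union l.open_target r.open_target h
    ((k.sub (cur_cl k₀)).mono (subset_univ _)) (ex_tgt l a k₀ k₁ e₁) (ex_tgt r b k₀ k₂ e₂))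

omit hc [SigmaCompactSpace M] in
theorem pm_two [I₁.Boundaryless] [I₂.Boundaryless] {S₂ : Set M₂} {a₁ : M₁ → Ext E₁} {a₂ : M₂ → Ext E₂} (h : ∀ y, y ∉ S₂ → a₂ y = 0)
    (dj : Disjoint l.target (r '' S₂)) {y : M₁} (hy : y ∈ l.source) :
    pm I₁ I l (psh l a₁ + psh r a₂) y = a₁ y := by
  rw [Dr59.pm_congr_right (b := psh l a₁) (by
    rw [Pi.add_apply, Dr59.psh_eq_zero r (fun z _ => h z) (disjoint_left.1 dj (l.map_source hy)), add_zero]),
    Dr59.pm_psh l hy]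

/-- curvature forms with compact support off the neck add up -/
theorem cur_two [T2Space M₁] [SigmaCompactSpace M₁] [I₁.Boundaryless] [T2Space M₂] [SigmaCompactSpace M₂]
    [I₂.Boundaryless] (h : HZ I 1 (l.target ∩ r.target)) (a : Pb l l.source d d₁) (b : Pb r r.source d d₂)
    {S₁ : Set M₁} {S₂ : Set M₂} {c₁ : M₁ → Ext E₁} {c₂ : M₂ → Ext E₂} (k₁ : Cur d₁ c₁) (k₂ : Cur d₂ c₂)
    (s₁ : Cs I₁ 2 S₁ c₁) (s₂ : Cs I₂ 2 S₂ c₂) (h₁ : S₁ ⊆ l.source) (h₂ : S₂ ⊆ r.source)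
    (j₁ : Disjoint r.target (l '' S₁)) (j₂ : Disjoint l.target (r '' S₂)) : Cur d (psh l c₁ + psh r c₂) :=
  cur_glue l r hc h a b k₁ k₂ ((s₁.psh l h₁).cl.add (s₂.psh r h₂).cl)
    (Dr59.ex_of_zero fun y hy => by rw [Pi.sub_apply, pm_two l r (fun _ => s₂.eq_zero) j₂ hy, sub_self])
    (Dr59.ex_of_zero fun y hy => by rw [Pi.sub_apply, add_comm, pm_two r l (fun _ => s₁.eq_zero) j₁ hy, sub_self])

omit hc [SigmaCompactSpace M] in
/-- **the pairing is additive** -/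
theorem ip_two [MeasurableSpace E] [BorelSpace E] [MeasurableSpace M] [BorelSpace M] [SecondCountableTopology M]
    [MeasurableSpace E₁] [BorelSpace E₁] [MeasurableSpace M₁] [BorelSpace M₁] [SecondCountableTopology M₁]
    [T2Space M₁] [I₁.Boundaryless] [MeasurableSpace E₂] [BorelSpace E₂] [MeasurableSpace M₂] [BorelSpace M₂]
    [SecondCountableTopology M₂] [T2Space M₂] [I₂.Boundaryless] {o : M → Ext E} {o₁ : M₁ → Ext E₁}
    {o₂ : M₂ → Ext E₂} (ho : Ori I o) (ho₁ : Ori I₁ o₁) (ho₂ : Ori I₂ o₂) (p₁ : Pos I₁ I l l.source o₁ o)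
    (p₂ : Pos I₂ I r r.source o₂ o) {k : ℕ} {S₁ : Set M₁} {S₂ : Set M₂} {e₁ : M₁ → Ext E₁} {e₂ : M₂ → Ext E₂}
    (s₁ : Cs I₁ k S₁ e₁) (s₂ : Cs I₂ k S₂ e₂) (h₁ : S₁ ⊆ l.source) (h₂ : S₂ ⊆ r.source) {c : M → Ext E}
    (hc : Dr59.Sm I univ c) :
    ip I o c (psh l e₁ + psh r e₂) = ip I₁ o₁ (pm I₁ I l c) e₁ + ip I₂ o₂ (pm I₂ I r c) e₂ := by
  rw [Dr59.ip_add_right ((s₁.psh l h₁).mono (subset_univ _)) ((s₂.psh r h₂).mono (subset_univ _)) ho hc,
    s₁.ip_psh l h₁ ho ho₁ (Int54.SameOn.symm (p₁.mono h₁)), s₂.ip_psh r h₂ ho ho₂ (Int54.SameOn.symm (p₂.mono h₂))]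

end two

end gen

/-! ### ends with a time function -/

section tiso

variable {V : Type} [NormedAddCommGroup V] [NormedSpace ℝ V] [FiniteDimensional ℝ V] {X : TP V} {B : O3}
  {J J' : Set ℝ} {d d' : Cls X.P.I (univ : Set X.P.M)}

theorem hz_nk {n : ℕ} (h : HZ B.Y.I n (univ : Set B.Y.M)) (k : TIso B.cyl X J) (hJ : IsOpen J') (hc : OrdConnected J')
    (h0 : J' ⊆ J) : HZ X.P.I n (X.τ ⁻¹' J') := by
  rw [← img k h0, Dr59.hz_pd k.φ (hJ.preimage B.cyl.cont) fun _ hz => k.mem_src (h0 hz)]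
  have := h.prod_convex isOpen_univ hJ hc.convex
  rwa [univ_prod] at this

theorem tiso_ex (k : TIso B.cyl X J) (hJ : IsOpen J) (hc : OrdConnected J) (hn : J.Nonempty)
    (d : Cls X.P.I (univ : Set X.P.M)) : ∃ s : B.L, Pb k (B.cyl.τ ⁻¹' J) d s :=
  end_ex (K := B.Y.I) (Y := B.Y.M) hJ hc hn (fun _ hz => k.ld hz) d

theorem tiso_inj (k : TIso B.cyl X J) (hJ : IsOpen J) (hc : OrdConnected J) (hJ' : IsOpen J')
    (hc' : OrdConnected (J' ∩ J)) (hn : (J' ∩ J).Nonempty) (hu : J' ∪ J = univ)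
    (e : d.res (subset_univ (X.τ ⁻¹' J')) = d'.res (subset_univ _)) : d = d' :=
  have := sigT X
  trunc_inj (K := B.Y.I) (Y := B.Y.M) (J' := J' ∩ J) k.φ k.src
    (fun z hz => by
      have h : z.2 ∈ J := k.src.le hz
      show X.τ (k z) ∈ J' ↔ _
      rw [k.tm z h]; exact ⟨fun a => ⟨a, h⟩, fun a => a.1⟩)
    inter_subset_right (hJ'.preimage X.cont) (by rw [k.tgt, ← preimage_union, hu, preimage_univ]) hJ hc
    (hJ'.inter hJ) hc' hn e

end tiso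

section cob

variable {A B : Q3} (C : Cob A B) {d : C.L}

theorem in_ex (d : C.L) : ∃ s, C.In d s := tiso_ex C.ki isOpen_Iio ordConnected_Iio nonempty_Iio d

theorem out_ex (d : C.L) : ∃ t, C.Out d t := tiso_ex C.ko isOpen_Ioi ordConnected_Ioi nonempty_Ioi d

theorem in_uniq {s s' : A.L} (h : C.In d s) (h' : C.In d s') : s = s' :=
  end_uniq (K := A.Y.I) (Y := A.Y.M) isOpen_Iio nonempty_Iio h h'

theorem out_uniq {t t' : B.L} (h : C.Out d t) (h' : C.Out d t') : t = t' :=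
  end_uniq (K := B.Y.I) (Y := B.Y.M) isOpen_Ioi nonempty_Ioi h h'

end cob

/-! ### gluing data -/

section gl

variable {B : O3} {W₁ W₂ W : W4} {b a : ℝ} {ko : TIso B.cyl W₁.X (Ioi b)} {ki : TIso B.cyl W₂.X (Iio a)}
  (g : Gl W₁ W₂ W ko ki) {d d' : W.L} {d₁ d₁' : W₁.L} {d₂ d₂' : W₂.L} {s : B.L}

variable (ko ki) in
/-- the two classes agree on the neck -/
def Mt (d₁ : W₁.L) (d₂ : W₂.L) : Prop :=
  ∃ s : B.L, Pb ko (B.cyl.τ ⁻¹' Ioi b) d₁ s ∧ Pb ki (B.cyl.τ ⁻¹' Iio a) d₂ s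

/-- the left piece -/
def pl : PartialDiffeomorph W₁.X.P.I W.X.P.I W₁.M W.M ∞ := g.l.φ

/-- the right piece -/
def pr : PartialDiffeomorph W₂.X.P.I W.X.P.I W₂.M W.M ∞ := g.r.φ

theorem pl_src : (pl g).source = {x | W₁.X.τ x + g.δ₁ < g.β} := g.l.src

theorem pr_src : (pr g).source = {x | g.α < W₂.X.τ x + g.δ₂} := g.r.src

theorem pl_tgt : (pl g).target = W.X.τ ⁻¹' Iio g.β := g.l.tgt

theorem pr_tgt : (pr g).target = W.X.τ ⁻¹' Ioi g.α := g.r.tgt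

theorem rs_iff : g.Rs d d₁ d₂ ↔ Pb (pl g) (pl g).source d d₁ ∧ Pb (pr g) (pr g).source d d₂ := by
  rw [pl_src, pr_src]; rfl

theorem cov : (pl g).target ∪ (pr g).target = univ := by
  rw [pl_tgt, pr_tgt, ← preimage_union, Iio_union_Ioi_of_lt g.lt, preimage_univ]

theorem ovl : (pl g).target ∩ (pr g).target = W.X.τ ⁻¹' Ioo g.α g.β := by
  rw [pl_tgt, pr_tgt, ← preimage_inter, Iio_inter_Ioi]

theorem sub₁ : Ioo g.α g.β ⊆ {t | t - g.δ₁ ∈ Ioi b} := fun t ht =>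
  show b < t - g.δ₁ by linarith [g.hb, ht.1]

theorem sub₂ : Ioo g.α g.β ⊆ {t | t - g.δ₂ ∈ Iio a} := fun t ht =>
  show t - g.δ₂ < a by linarith [g.ha, ht.2]

/-- the neck -/
def nk : TIso B.cyl W.X (Ioo g.α g.β) :=
  ((ko.shiftC isOpen_Ioi g.δ₁).restr isOpen_Ioo (sub₁ g)).trans (g.l.restr isOpen_Ioo Ioo_subset_Iio_self)

theorem nk_l (z : B.Y.M × ℝ) : nk g z = g.fl (ko (z.1, z.2 - g.δ₁)) := rfl

theorem nk_r {z : B.Y.M × ℝ} (hz : z.2 ∈ Ioo g.α g.β) : nk g z = g.fr (ki (z.1, z.2 - g.δ₂)) := g.ov z.1 z.2 hz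

theorem mem_l {z : B.Y.M × ℝ} (hz : z.2 ∈ Ioo g.α g.β) : W₁.X.τ (ko (z.1, z.2 - g.δ₁)) + g.δ₁ < g.β := by
  rw [ko.tm (z.1, z.2 - g.δ₁) (sub₁ g hz)]; exact (sub_add_cancel _ _).trans_lt hz.2

theorem mem_r {z : B.Y.M × ℝ} (hz : z.2 ∈ Ioo g.α g.β) : g.α < W₂.X.τ (ki (z.1, z.2 - g.δ₂)) + g.δ₂ := by
  rw [ki.tm (z.1, z.2 - g.δ₂) (sub₂ g hz)]; exact hz.1.trans_eq (sub_add_cancel _ _).symm

theorem hz_ovl {n : ℕ} (h : HZ B.Y.I n (univ : Set B.Y.M)) : HZ W.X.P.I n ((pl g).target ∩ (pr g).target) :=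
  ovl g ▸ hz_nk h (nk g) isOpen_Ioo ordConnected_Ioo subset_rfl

theorem sh_l (k : Pb ko (B.cyl.τ ⁻¹' Ioi b) d₁ s) :
    Pb (N := B.cyl.P.M) (fun z => ko (z.1, z.2 - g.δ₁)) (B.cyl.τ ⁻¹' Ioo g.α g.β) d₁ s :=
  pb_sh (K := B.Y.I) (Y := B.Y.M) (-g.δ₁) (fun _ _ _ => rfl) isOpen_Ioo (sub₁ g) k

theorem sh_r (k : Pb ki (B.cyl.τ ⁻¹' Iio a) d₂ s) :
    Pb (N := B.cyl.P.M) (fun z => ki (z.1, z.2 - g.δ₂)) (B.cyl.τ ⁻¹' Ioo g.α g.β) d₂ s :=
  pb_sh (K := B.Y.I) (Y := B.Y.M) (-g.δ₂) (fun _ _ _ => rfl) isOpen_Ioo (sub₂ g) k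

theorem nk_of_l (h : g.Rs d d₁ d₂) (k : Pb ko (B.cyl.τ ⁻¹' Ioi b) d₁ s) :
    Pb (nk g) (B.cyl.τ ⁻¹' Ioo g.α g.β) d s :=
  pb_comp (f := g.fl) h.1 (sh_l g k) fun _ hz => mem_l g hz

theorem nk_of_r (h : g.Rs d d₁ d₂) (k : Pb ki (B.cyl.τ ⁻¹' Iio a) d₂ s) :
    Pb (nk g) (B.cyl.τ ⁻¹' Ioo g.α g.β) d s :=
  pb_congr (pb_comp h.2 (sh_r g k) fun _ hz => mem_r g hz) fun _ hz =>
    eventually_of_mem ((isOpen_Ioo.preimage B.cyl.cont).mem_nhds hz) fun _ hy => nk_r g hy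

theorem rs_ex (d : W.L) : ∃ d₁ d₂, g.Rs d d₁ d₂ := (glStmt _ _ _ _ _ _ _ _ g).1 d

/-- the restrictions agree on the neck -/
theorem rs_mt (h : g.Rs d d₁ d₂) : Mt ko ki d₁ d₂ := by
  obtain ⟨s, k⟩ := tiso_ex ko isOpen_Ioi ordConnected_Ioi nonempty_Ioi d₁
  obtain ⟨s', k'⟩ := tiso_ex ki isOpen_Iio ordConnected_Iio nonempty_Iio d₂
  exact ⟨s, k, end_uniq (K := B.Y.I) (Y := B.Y.M) isOpen_Ioo (nonempty_Ioo.2 g.lt) (nk_of_r g h k')
    (nk_of_l g h k) ▸ k'⟩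

/-- the restrictions are unique -/
theorem rs_fun (h : g.Rs d d₁ d₂) (h' : g.Rs d d₁' d₂') : d₁ = d₁' ∧ d₂ = d₂' := by
  have lt := g.lt
  have hb := g.hb
  have ha := g.ha
  exact ⟨tiso_inj (J' := {t | t + g.δ₁ < g.β}) ko isOpen_Ioi ordConnected_Ioi
      (isOpen_lt (by fun_prop) continuous_const)
      (OrdConnected.inter ⟨fun _ _ _ h _ k => (add_le_add_left k.2 _).trans_lt h⟩ ordConnected_Ioi)
      ⟨(g.α + g.β) / 2 - g.δ₁, by simp only [mem_ofPred_eq]; linarith, by simp only [mem_Ioi]; linarith⟩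
      (eq_univ_of_forall fun t => (lt_or_ge b t).elim .inr fun k => .inl (by simp only [mem_ofPred_eq]; linarith))
      (h.1.2.symm.trans h'.1.2),
    tiso_inj (J' := {t | g.α < t + g.δ₂}) ki isOpen_Iio ordConnected_Iio
      (isOpen_lt continuous_const (by fun_prop))
      (OrdConnected.inter ⟨fun _ h _ _ _ k => h.trans_le (add_le_add_left k.1 _)⟩ ordConnected_Iio)
      ⟨(g.α + g.β) / 2 - g.δ₂, by simp only [mem_ofPred_eq]; linarith, by simp only [mem_Iio]; linarith⟩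
      (eq_univ_of_forall fun t => (lt_or_ge t a).elim .inr fun k => .inl (by simp only [mem_ofPred_eq]; linarith))
      (h.2.2.symm.trans h'.2.2)⟩

/-- **matching classes glue** -/
theorem exists_rs (h : Mt ko ki d₁ d₂) : ∃ d, g.Rs d d₁ d₂ := by
  obtain ⟨s, k₁, k₂⟩ := h
  have := sigT W.X
  have o := fun z (hz : z ∈ B.cyl.τ ⁻¹' Ioo g.α g.β) => (isOpen_Ioo.preimage B.cyl.cont).mem_nhds hz
  exact (glue_ex (pl g) (pr g) (cov g) (nk g).φ ((nk g).tgt.trans (ovl g).symm) (s := s)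
    ((nk g).src ▸ pb_congr (sh_l g k₁) fun z hz => eventually_of_mem (o z hz) fun _ hy => g.l.symm_apply (mem_l g hy))
    ((nk g).src ▸ pb_congr (sh_r g k₂) fun z hz => eventually_of_mem (o z hz) fun _ hy =>
      (congrArg g.r.symm (nk_r g hy)).trans (g.r.symm_apply (mem_r g hy)))).imp fun _ => (rs_iff g).2

theorem rs_inj' (h : Spl W.X.P.I (pl g).target (pr g).target) (k : g.Rs d d₁ d₂) (k' : g.Rs d' d₁ d₂) : d = d' :=
  have := sigT W.X
  glue_inj _ _ (cov g) h ((rs_iff g).1 k).1 ((rs_iff g).1 k').1 ((rs_iff g).1 k).2 ((rs_iff g).1 k').2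

/-- **along a neck with `b₁ = 0` the glued class is unique** -/
theorem rs_inj (h : HZ B.Y.I 1 (univ : Set B.Y.M)) (k : g.Rs d d₁ d₂) (k' : g.Rs d' d₁ d₂) : d = d' :=
  have := sigT W.X
  rs_inj' g (spl_of_hz (pl g).open_target (pr g).open_target (hz_ovl g h)) k k'

/-- **MV** : classes of the union are matching pairs -/
def eqv (h : HZ B.Y.I 1 (univ : Set B.Y.M)) : W.L ≃ {p : W₁.L × W₂.L // Mt ko ki p.1 p.2} :=
  .ofBijective (fun d => ⟨(_, _), rs_mt g (rs_ex g d).choose_spec.choose_spec⟩)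
    ⟨fun d d' e => rs_inj g h (rs_ex g d).choose_spec.choose_spec (by
      have k : ∀ p p' : W₁.L × W₂.L, p = p' → g.Rs d' p'.1 p'.2 → g.Rs d' p.1 p.2 := fun _ _ e => e ▸ id
      exact k _ _ (congrArg Subtype.val e) (rs_ex g d').choose_spec.choose_spec),
    fun p => (exists_rs g p.2).imp fun d k => Subtype.ext (Prod.ext_iff.2
      (rs_fun g (rs_ex g d).choose_spec.choose_spec k))⟩

theorem rs_eqv (h : HZ B.Y.I 1 (univ : Set B.Y.M)) (d : W.L) : g.Rs d (eqv g h d).1.1 (eqv g h d).1.2 :=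
  (rs_ex g d).choose_spec.choose_spec

theorem eqv_iff (h : HZ B.Y.I 1 (univ : Set B.Y.M)) : (eqv g h d).1 = (d₁, d₂) ↔ g.Rs d d₁ d₂ :=
  ⟨fun e => by simpa only [e] using rs_eqv g h d, fun k => Prod.ext_iff.2 (rs_fun g (rs_eqv g h d) k)⟩

/-- the class on another end of the left piece -/
theorem rs_left {A : O3} {l : Filter ℝ} (hl : Nd l) (hf : Fat l) {J J' : Set ℝ} (k₁ : TIso A.cyl W₁.X J)
    (k : TIso A.cyl W.X J') (ag : Ag l (g.fl ∘ k₁) k) (hJ' : IsOpen J') (hc : OrdConnected J') (h1 : J ∈ l)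
    (h2 : J' ∈ l) (h3 : {t | t + g.δ₁ < g.β} ∈ l) (h : g.Rs d d₁ d₂) {s : A.L}
    (e : Pb k₁ (A.cyl.τ ⁻¹' J) d₁ s) : Pb k (A.cyl.τ ⁻¹' J') d s :=
  pb_ag (K := A.Y.I) (Y := A.Y.M) hl hf (ag_symm hl ag) hJ' hc h2 (inter_mem h1 h3) (fun _ hz => k.ld hz)
    (pb_comp h.1 (pb_mono e (preimage_mono inter_subset_left)) fun z hz => by
      show W₁.X.τ (k₁ z) + g.δ₁ < g.β
      rw [k₁.tm z hz.1]; exact hz.2)

/-- the class on another end of the right piece -/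
theorem rs_right {A : O3} {l : Filter ℝ} (hl : Nd l) (hf : Fat l) {J J' : Set ℝ} (k₂ : TIso A.cyl W₂.X J)
    (k : TIso A.cyl W.X J') (ag : Ag l (g.fr ∘ k₂) k) (hJ' : IsOpen J') (hc : OrdConnected J') (h1 : J ∈ l)
    (h2 : J' ∈ l) (h3 : {t | g.α < t + g.δ₂} ∈ l) (h : g.Rs d d₁ d₂) {s : A.L}
    (e : Pb k₂ (A.cyl.τ ⁻¹' J) d₂ s) : Pb k (A.cyl.τ ⁻¹' J') d s :=
  pb_ag (K := A.Y.I) (Y := A.Y.M) hl hf (ag_symm hl ag) hJ' hc h2 (inter_mem h1 h3) (fun _ hz => k.ld hz)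
    (pb_comp h.2 (pb_mono e (preimage_mono inter_subset_left)) fun z hz => by
      show g.α < W₂.X.τ (k₂ z) + g.δ₂
      rw [k₂.tm z hz.1]; exact hz.2)

/-- the sum of two forms of the pieces -/
def sum (e₁ : W₁.Fm) (e₂ : W₂.Fm) : W.Fm := psh (pl g) e₁ + psh (pr g) e₂

variable {e₁ c₁ : W₁.Fm} {e₂ c₂ : W₂.Fm} {n : ℕ}

theorem sub_l : {x | W₁.X.τ x + g.δ₁ ≤ g.α} ⊆ (pl g).source := fun _ hx => g.l.mem_src (hx.trans_lt g.lt)

theorem sub_r : {x | g.β ≤ W₂.X.τ x + g.δ₂} ⊆ (pr g).source := fun _ hx => g.r.mem_src (g.lt.trans_le hx)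

theorem dj_l : Disjoint (pr g).target ((pl g) '' {x | W₁.X.τ x + g.δ₁ ≤ g.α}) :=
  disjoint_right.2 (by
    rintro _ ⟨x, hx, rfl⟩ k
    exact (g.r.tgt.le k).not_ge ((g.l.tm x (hx.trans_lt g.lt)).trans_le hx))

theorem dj_r : Disjoint (pl g).target ((pr g) '' {x | g.β ≤ W₂.X.τ x + g.δ₂}) :=
  disjoint_right.2 (by
    rintro _ ⟨x, hx, rfl⟩ k
    exact (g.l.tgt.le k).not_ge (hx.trans_eq (g.r.tm x (g.lt.trans_le hx)).symm))

theorem cs_sum (h₁ : Cs W₁.X.P.I n {x | W₁.X.τ x + g.δ₁ ≤ g.α} e₁) (h₂ : Cs W₂.X.P.I n {x | g.β ≤ W₂.X.τ x + g.δ₂} e₂) :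
    Cs W.X.P.I n univ (sum g e₁ e₂) :=
  ((h₁.psh _ (sub_l g)).mono (subset_univ _)).add ((h₂.psh _ (sub_r g)).mono (subset_univ _))

theorem pm_sum_l (h₂ : Cs W₂.X.P.I n {x | g.β ≤ W₂.X.τ x + g.δ₂} e₂) {x : W₁.M} (hx : W₁.X.τ x + g.δ₁ < g.β) :
    pm W₁.X.P.I W.X.P.I g.fl (sum g e₁ e₂) x = e₁ x :=
  pm_two (pl g) (pr g) (fun _ => h₂.eq_zero) (dj_r g) (g.l.mem_src hx)

theorem pm_sum_r (h₁ : Cs W₁.X.P.I n {x | W₁.X.τ x + g.δ₁ ≤ g.α} e₁) {x : W₂.M} (hx : g.α < W₂.X.τ x + g.δ₂) :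
    pm W₂.X.P.I W.X.P.I g.fr (sum g e₁ e₂) x = e₂ x := by
  rw [sum, add_comm]
  exact pm_two (pr g) (pl g) (fun _ => h₁.eq_zero) (dj_l g) (g.r.mem_src hx)

theorem cur_sum (h : HZ B.Y.I 1 (univ : Set B.Y.M)) (k : g.Rs d d₁ d₂) (k₁ : Cur d₁ c₁) (k₂ : Cur d₂ c₂)
    (h₁ : Cs W₁.X.P.I 2 {x | W₁.X.τ x + g.δ₁ ≤ g.α} c₁) (h₂ : Cs W₂.X.P.I 2 {x | g.β ≤ W₂.X.τ x + g.δ₂} c₂) :
    Cur d (sum g c₁ c₂) :=
  have := sigT W.X; have := sigT W₁.X; have := sigT W₂.X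
  cur_two _ _ (cov g) (hz_ovl g h) ((rs_iff g).1 k).1 ((rs_iff g).1 k).2 k₁ k₂ h₁ h₂ (sub_l g) (sub_r g)
    (dj_l g) (dj_r g)

theorem ip_sum (h₁ : Cs W₁.X.P.I n {x | W₁.X.τ x + g.δ₁ ≤ g.α} e₁) (h₂ : Cs W₂.X.P.I n {x | g.β ≤ W₂.X.τ x + g.δ₂} e₂)
    {c : W.Fm} (hc : Dr59.Sm W.X.P.I univ c) : ip W.X.P.I W.o c (sum g e₁ e₂) =
      ip W₁.X.P.I W₁.o (pm W₁.X.P.I W.X.P.I g.fl c) e₁ + ip W₂.X.P.I W₂.o (pm W₂.X.P.I W.X.P.I g.fr c) e₂ :=
  ip_two (pl g) (pr g) W.ori W₁.ori W₂.ori (pl_src g ▸ g.pl) (pr_src g ▸ g.pr) h₁ h₂ (sub_l g) (sub_r g) hc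

theorem ip_sum_sum {m : ℕ} (k₁ : Cs W₁.X.P.I m {x | W₁.X.τ x + g.δ₁ ≤ g.α} c₁)
    (k₂ : Cs W₂.X.P.I m {x | g.β ≤ W₂.X.τ x + g.δ₂} c₂) (h₁ : Cs W₁.X.P.I n {x | W₁.X.τ x + g.δ₁ ≤ g.α} e₁)
    (h₂ : Cs W₂.X.P.I n {x | g.β ≤ W₂.X.τ x + g.δ₂} e₂) :
    ip W.X.P.I W.o (sum g c₁ c₂) (sum g e₁ e₂) = ip W₁.X.P.I W₁.o c₁ e₁ + ip W₂.X.P.I W₂.o c₂ e₂ := by
  rw [ip_sum g h₁ h₂ (cs_sum g k₁ k₂).cl.sm, h₁.ip_congr fun _ hx => pm_sum_l g k₂ (hx.trans_lt g.lt),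
    h₂.ip_congr fun _ hx => pm_sum_r g k₁ (g.lt.trans_le hx)]

end gl

end Crest.Agent.X212.Mv17
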